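import Mathlib

/-!
P129: definitions for the construction of a Banach space without separable quotient.
See notes/P129.md for the mathematics.
-/

namespace Vale.Agent.P129

open Finset

noncomputable section

open Classical

/-- The weights. -/
def mm (j : ℕ) : ℕ := 2 ^ (j + 3)

/-- Running sums of the sizes. -/
def SS : ℕ → ℕ
  | 0 => 0
  | j + 1 => SS j + mm j * (1 + 2 * SS j) ^ (j + 3)

/-- The sizes. -/
def nn (j : ℕ) : ℕ := mm j * (1 + 2 * SS j) ^ (j + 3)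

/-- An injective enumeration of the possible types of histories. -/
def enc : List (ℕ × (ℕ →₀ ℚ)) → ℕ :=
  Classical.choose (Countable.exists_injective_nat (List (ℕ × (ℕ →₀ ℚ))))

/-- The coding function. -/
def code (p : ℕ) (τ : List (ℕ × (ℕ →₀ ℚ))) : ℕ := Nat.pair p (enc τ) + 1

/-- A rho function of Todorcevic. -/
structure Rho (Γ : Type) [LinearOrder Γ] where
  ρ : Γ → Γ → ℕ
  refl : ∀ a, ρ a a = 0
  tr1 : ∀ a b c, a ≤ b → b ≤ c → ρ a c ≤ max (ρ a b) (ρ b c)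
  tr2 : ∀ a b c, a ≤ b → b ≤ c → ρ a b ≤ max (ρ a c) (ρ b c)
  fin : ∀ b n, {a | a ≤ b ∧ ρ a b ≤ n}.Finite

variable {Γ : Type} [LinearOrder Γ]

/-- Every element of `A` is below every element of `B`. -/
def Before (A B : Finset Γ) : Prop := ∀ a ∈ A, ∀ b ∈ B, a < b

/-- `A` is a chain of the `p`-th tree order. -/
def Chain (R : Rho Γ) (p : ℕ) (A : Finset Γ) : Prop := ∀ a ∈ A, ∀ b ∈ A, a ≤ b → R.ρ a b ≤ p

/-- Height in the `p`-th tree order. -/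
def ht (R : Rho Γ) (p : ℕ) (b : Γ) : ℕ := {a | a ≤ b ∧ R.ρ a b ≤ p}.ncard

/-- The union of the supports of the first `i` functionals. -/
def hsupp {M : Type} [Zero M] (φ : ℕ → Γ →₀ M) (i : ℕ) : Finset Γ :=
  (range i).biUnion fun h => (φ h).support

/-- A sequence of successive vectors. -/
def Succ {M : Type} [Zero M] (u : ℕ → Γ →₀ M) : Prop :=
  ∀ k k', k < k' → Before (u k).support (u k').support

/-- The type at level `p` of the history of length `i`. -/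
def hist (R : Rho Γ) (p : ℕ) (w : ℕ → ℕ) (φ : ℕ → Γ →₀ ℚ) (i : ℕ) : List (ℕ × (ℕ →₀ ℚ)) :=
  (List.range i).map fun h => (w h, Finsupp.mapDomain (ht R p) (φ h))

/-- Restriction to a set of coordinates. -/
def res {M : Type} [Zero M] (E : Set Γ) (g : Γ →₀ M) : Γ →₀ M := g.filter (· ∈ E)

/-- Weighted functionals of weight `w`. -/
def Wt (G : Set (Γ →₀ ℚ)) (w : ℕ) (φ : Γ →₀ ℚ) : Prop :=
  ∃ (n : ℕ) (g : ℕ → Γ →₀ ℚ), n ≤ nn w ∧ (∀ r < n, g r ∈ G) ∧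
    (∀ r r', r < r' → r' < n → Before (g r).support (g r').support) ∧
    φ = ((mm w : ℚ))⁻¹ • ∑ r ∈ range n, g r

/-- Special sequences of length `q`. -/
structure IsSp (R : Rho Γ) (G : Set (Γ →₀ ℚ)) (q : ℕ) (w : ℕ → ℕ) (φ : ℕ → Γ →₀ ℚ) : Prop where
  wt : ∀ i < q, Wt G (w i) (φ i)
  cod : ∀ i, i + 1 < q → ∃ p, w i ≤ p ∧ Chain R p (hsupp φ (i + 1)) ∧
    w (i + 1) = code p (hist R p w φ (i + 1))

/-- Special functionals `∑ w ∈ A, ψ w` with set of weights `A`. -/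
def IsSF (R : Rho Γ) (G : Set (Γ →₀ ℚ)) (A : Finset ℕ) (ψ : ℕ → Γ →₀ ℚ) : Prop :=
  ∃ (q a : ℕ) (w : ℕ → ℕ) (φ : ℕ → Γ →₀ ℚ) (E : Set Γ), IsSp R G q w φ ∧ E.OrdConnected ∧
    A = (Ico a q).image w ∧ ∀ i ∈ Ico a q, ψ (w i) = res E (φ i)

/-- Admissible families of special functionals. -/
structure Adm (R : Rho Γ) (G : Set (Γ →₀ ℚ)) {ι : Type} (s : Finset ι) (A : ι → Finset ℕ)
    (ψ : ι → ℕ → Γ →₀ ℚ) : Prop where
  sf : ∀ l ∈ s, IsSF R G (A l) (ψ l)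
  disj : ∀ l ∈ s, ∀ l' ∈ s, l ≠ l' → Disjoint (A l) (A l')
  card : ∀ l ∈ s, ∀ w ∈ A l, s.card ≤ w + 1

/-- Signed sums of admissible families. -/
def Comb (R : Rho Γ) (G : Set (Γ →₀ ℚ)) : Set (Γ →₀ ℚ) :=
  {g | ∃ (s : Finset ℕ) (A : ℕ → Finset ℕ) (ψ : ℕ → ℕ → Γ →₀ ℚ) (ε : ℕ → ℚ), Adm R G s A ψ ∧
    (∀ l, ε l = 1 ∨ ε l = -1) ∧ g = ∑ l ∈ s, ε l • ∑ w ∈ A l, ψ l w}

/-- The coordinate functionals. -/
def Base (Γ : Type) : Set (Γ →₀ ℚ) :=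
  {g | ∃ a, g = Finsupp.single a 1 ∨ g = Finsupp.single a (-1)}

/-- The norming set. -/
def GG (R : Rho Γ) : Set (Γ →₀ ℚ) := ⋂₀ {S | Base Γ ⊆ S ∧ Comb R S ⊆ S}

/-- Signed sums of admissible families with all weights at least `j`. -/
def HC (R : Rho Γ) (j : ℕ) (g : Γ →₀ ℚ) : Prop :=
  ∃ (s : Finset ℕ) (A : ℕ → Finset ℕ) (ψ : ℕ → ℕ → Γ →₀ ℚ) (ε : ℕ → ℚ), Adm R (GG R) s A ψ ∧
    (∀ l, ε l = 1 ∨ ε l = -1) ∧ (∀ l ∈ s, ∀ w ∈ A l, j ≤ w) ∧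
    g = ∑ l ∈ s, ε l • ∑ w ∈ A l, ψ l w

/-- The action of a coefficient function on a finitely supported vector. -/
def dot (ξ : Γ → ℝ) : (Γ →₀ ℝ) →ₗ[ℝ] ℝ := Finsupp.linearCombination ℝ ξ

/-- The coefficient function of a rational functional. -/
def cf (g : Γ →₀ ℚ) : Γ → ℝ := fun a => (g a : ℝ)

/-- The action of a rational functional. -/
def act (g : Γ →₀ ℚ) : (Γ →₀ ℝ) →ₗ[ℝ] ℝ := dot (cf g)

/-- The `ℓ¹` norm. -/
def l1 (z : Γ →₀ ℝ) : ℝ := ∑ a ∈ z.support, |z a|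

/-- The norm. -/
def NN (R : Rho Γ) (z : Γ →₀ ℝ) : ℝ := ⨆ g : GG R, |act g.1 z|

/-- A filtration of block subspaces. -/
structure Blocks (V : ℕ → Submodule ℝ (Γ →₀ ℝ)) : Prop where
  anti : Antitone V
  ne : ∀ T, ∃ y ∈ V T, y ≠ 0
  after : ∀ T, ∀ y ∈ V T, ∃ T', ∀ y' ∈ V T', Before y.support y'.support

/-- Weights below `J` act on `v` like on a long average. -/
def Avg (R : Rho Γ) (C : ℝ) (J : ℕ) (v : Γ →₀ ℝ) : Prop :=
  ∀ w < J, ∀ ψ, Wt (GG R) w ψ → |act ψ v| ≤ C / mm w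

/-- Special functionals with weights at least `J` are small on `v`. -/
def Hi (R : Rho Γ) (J : ℕ) (η : ℝ) (v : Γ →₀ ℝ) : Prop :=
  ∀ A ψ, IsSF R (GG R) A ψ → (∀ w ∈ A, J ≤ w) → |act (∑ w ∈ A, ψ w) v| ≤ η

/-- Good vectors. -/
def Good (R : Rho Γ) (C η : ℝ) (v : Γ →₀ ℝ) : Prop :=
  NN R v = 1 ∧ ∃ J, Avg R C J v ∧ Hi R J η v

/-- The action on `u` of the part of a special sequence with weights in `[J, J')`. -/
def Dg (q : ℕ) (w : ℕ → ℕ) (φ : ℕ → Γ →₀ ℚ) (J J' : ℕ) (u : Γ →₀ ℝ) : ℝ :=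
  ∑ i ∈ (range q).filter (fun i => J ≤ w i ∧ w i < J'), act (φ i) u

/-- A coefficient function is null along a filtration. -/
def Null (N : (Γ →₀ ℝ) → ℝ) (V : ℕ → Submodule ℝ (Γ →₀ ℝ)) (ξ : Γ → ℝ) : Prop :=
  ∀ ε > 0, ∃ T, ∀ y ∈ V T, |dot ξ y| ≤ ε * N y

/-- Moves of the game which builds a branch. -/
abbrev Mv (Γ : Type) : Type := (Γ →₀ ℚ) × ℕ

/-- A move supported below `b`. -/
def MvLt (b : Γ) (x : Mv Γ) : Prop := ∀ a ∈ x.1.support, a < b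

/-- The guessing principle. -/
structure Guess (μ : Γ → ℕ → Mv Γ) (b : Γ → ℕ → Bool) : Prop where
  inj : Function.Injective b
  lt : ∀ δ k, MvLt δ (μ δ k)
  hit : ∀ (lam β : Γ) (H : ℕ → (ℕ → Mv Γ) → (ℕ → Bool) → Mv Γ),
    (∀ k ν c, MvLt lam (H k ν c)) →
    (∀ k ν ν' c c', (∀ i < k, ν i = ν' i) → (∀ i < k, c i = c' i) → H k ν c = H k ν' c') →
    ∃ δ, β ≤ δ ∧ (∀ k, MvLt lam (μ δ k)) ∧ ∀ n, ∃ k ≥ n, μ δ k = H k (μ δ) (b δ)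

/-- A level at which a finite set is a chain. -/
def lev (R : Rho Γ) (A : Finset Γ) : ℕ := (A ×ˢ A).sup fun x => R.ρ x.1 x.2

/-- The weight used at step `k`, given the earlier weights and functionals. -/
def nextW (R : Rho Γ) (ν : ℕ → Mv Γ) (c : ℕ → Bool) (w : ℕ → ℕ) (φ : ℕ → Γ →₀ ℚ) : ℕ → ℕ
  | 0 => 0
  | k + 1 =>
    code (2 * max (max (w k) (ν k).2) (lev R (hsupp φ (k + 1))) + (c k).toNat)
      (hist R (2 * max (max (w k) (ν k).2) (lev R (hsupp φ (k + 1))) + (c k).toNat) w φ (k + 1))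

/-- The states of the game: after `k` steps the first `k` weights and functionals are fixed. -/
def state (R : Rho Γ) (ν : ℕ → Mv Γ) (c : ℕ → Bool) : ℕ → (ℕ → ℕ) × (ℕ → Γ →₀ ℚ)
  | 0 => (fun _ => 0, fun _ => 0)
  | k + 1 =>
    (Function.update (state R ν c k).1 k (nextW R ν c (state R ν c k).1 (state R ν c k).2 k),
      Function.update (state R ν c k).2 k
        (if Wt (GG R) (nextW R ν c (state R ν c k).1 (state R ν c k).2 k) (ν k).1 then (ν k).1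
          else 0))

/-- The weights of the branch. -/
def pw (R : Rho Γ) (ν : ℕ → Mv Γ) (c : ℕ → Bool) (k : ℕ) : ℕ := (state R ν c (k + 1)).1 k

/-- The functionals of the branch. -/
def pf (R : Rho Γ) (ν : ℕ → Mv Γ) (c : ℕ → Bool) (k : ℕ) : Γ →₀ ℚ := (state R ν c (k + 1)).2 k

/-- A family of branches. -/
structure Branches (R : Rho Γ) (w : Γ → ℕ → ℕ) (φ : Γ → ℕ → Γ →₀ ℚ) : Prop where
  sp : ∀ δ q, IsSp R (GG R) q (w δ) (φ δ)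
  lt : ∀ δ k, ∀ a ∈ (φ δ k).support, a < δ
  ad : ∀ δ δ', δ ≠ δ' → ∃ c, ∀ i ≥ c, ∀ i' ≥ c, w δ i ≠ w δ' i'

/-- Admissible cuts. -/
def Cut (w : Γ → ℕ → ℕ) (F : Finset Γ) (c : ℕ) : Prop :=
  (∀ δ ∈ F, ∀ δ' ∈ F, δ ≠ δ' → ∀ i ≥ c, ∀ i' ≥ c, w δ i ≠ w δ' i') ∧
    ∀ δ ∈ F, ∀ i ≥ c, F.card ≤ w δ i + 1

/-- The completion of `g` with tails `t` cut at `c`. -/
def cpl (t : Γ → ℕ → Γ → ℝ) (g : Γ →₀ ℚ) (c : ℕ) : Γ → ℝ :=
  cf g + ∑ ζ ∈ g.support, (g ζ : ℝ) • t ζ c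

/-- The tails of a family of branches, with the cut function `κ`. -/
structure Tails (w : Γ → ℕ → ℕ) (φ : Γ → ℕ → Γ →₀ ℚ) (κ : Finset Γ → ℕ)
    (t : Γ → ℕ → Γ → ℝ) : Prop where
  cut : ∀ F, Cut w F (κ F)
  eq : ∀ δ c θ, t δ c θ = ∑' k, cpl t (φ δ (k + c)) (κ (φ δ (k + c)).support) θ

/-- The generators of the predual. -/
def xx (t : Γ → ℕ → Γ → ℝ) (δ : Γ) : Γ → ℝ := Pi.single δ 1 + t δ 0

/-- The abstract properties of the norm `N` and of the functionals `x`. -/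
structure Frame (N : (Γ →₀ ℝ) → ℝ) (x : Γ → Γ → ℝ) : Prop where
  add : ∀ y z, N (y + z) ≤ N y + N z
  smul : ∀ (c : ℝ) z, N (c • z) = |c| * N z
  coord : ∀ z a, |z a| ≤ N z
  res_le : ∀ (E : Set Γ) z, E.OrdConnected → N (res E z) ≤ N z
  low : ∀ ε : ℝ, 0 < ε → ∃ n : ℕ, 0 < n ∧ ∀ (z : Γ →₀ ℝ) (E : ℕ → Set Γ),
    (∀ i, (E i).OrdConnected) → (∀ i j, i < j → ∀ a ∈ E i, ∀ b ∈ E j, a < b) →
    ∑ i ∈ range n, N (res (E i) z) ≤ ε * n * N z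
  x_self : ∀ δ, x δ δ = 1
  x_gt : ∀ δ a, δ < a → x δ a = 0
  x_bd : ∀ δ z, |dot (x δ) z| ≤ 3 * N z
  norming : ∀ (S : Set Γ), IsLowerSet S → ∀ z : Γ →₀ ℝ, (∀ a ∈ z.support, a ∈ S) →
    ∃ ξ ∈ Submodule.span ℝ (x '' S), (∀ y, |dot ξ y| ≤ 3 * N y) ∧ N z ≤ 2 * dot ξ z
  kill : ∀ (V : ℕ → Submodule ℝ (Γ →₀ ℝ)) (lam β : Γ), Blocks V →
    (∀ T, ∀ y ∈ V T, ∀ a ∈ y.support, a < lam) → (∀ ζ < lam, Null N V (x ζ)) →
    ∃ δ, β ≤ δ ∧ (∀ a, lam ≤ a → a ≠ δ → x δ a = 0) ∧ ¬ Null N V (x δ)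

/-- A completion `Z` of the finitely supported vectors, with the projections `P` and the
extensions `xh` of the functionals `x`. -/
structure Setup (N : (Γ →₀ ℝ) → ℝ) (x : Γ → Γ → ℝ) {Z : Type} [NormedAddCommGroup Z]
    [NormedSpace ℝ Z] (e : (Γ →₀ ℝ) →ₗ[ℝ] Z) (P : Set Γ → Z →L[ℝ] Z)
    (xh : Γ → StrongDual ℝ Z) : Prop where
  frame : Frame N x
  norm_e : ∀ z, ‖e z‖ = N z
  dense : DenseRange e
  P_e : ∀ E : Set Γ, E.OrdConnected → ∀ z, P E (e z) = e (res E z)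
  xh_e : ∀ δ z, xh δ (e z) = dot (x δ) z

/-- The space without separable quotient: the closed span of the functionals `xh`. -/
def XX {Z : Type} [NormedAddCommGroup Z] [NormedSpace ℝ Z] (xh : Γ → StrongDual ℝ Z) :
    Submodule ℝ (StrongDual ℝ Z) :=
  (Submodule.span ℝ (Set.range xh)).topologicalClosure

end

end Vale.Agent.P129
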